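import Mathlib

/-!
# Row 255, block D (helper89): Wilder finiteness, abstract part

`FR Z B` : `Z` is contained in `B` up to a finite dimensional subspace.
-/

set_option autoImplicit false

namespace Crest.Agent.N255.Wi

open Set Topology Filter

section FR

variable {k : Type*} [Field k] {M P : Type*} [AddCommGroup M] [Module k M] [AddCommGroup P]
  [Module k P]

/-- the image of `Z` in `M / B` is finite dimensional -/
def FR (Z B : Submodule k M) : Prop := ∃ F : Submodule k M, F.FG ∧ Z ≤ F ⊔ B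

namespace FR

variable {Z Z' B B' : Submodule k M}

theorem of_le (h : Z ≤ B) : FR Z B := ⟨⊥, Submodule.fg_bot, by simpa using h⟩

theorem of_fg (h : Z.FG) : FR Z B := ⟨Z, h, le_sup_left⟩

theorem mono (h : FR Z B) (hZ : Z' ≤ Z) (hB : B ≤ B') : FR Z' B' := by
  obtain ⟨F, hF, h⟩ := h
  exact ⟨F, hF, hZ.trans (h.trans (sup_le_sup_left hB _))⟩

theorem sup (h : FR Z B) (h' : FR Z' B) : FR (Z ⊔ Z') B := by
  obtain ⟨F, hF, h⟩ := h
  obtain ⟨F', hF', h'⟩ := h'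
  exact ⟨F ⊔ F', hF.sup hF', sup_le (h.trans (sup_le_sup_right le_sup_left _))
    (h'.trans (sup_le_sup_right le_sup_right _))⟩

theorem trans (h : FR Z Z') (h' : FR Z' B) : FR Z B := by
  obtain ⟨F, hF, h⟩ := h
  obtain ⟨F', hF', h'⟩ := h'
  refine ⟨F ⊔ F', hF.sup hF', h.trans ?_⟩
  rw [sup_assoc]
  exact sup_le_sup_left h' _

theorem map (h : FR Z B) (f : M →ₗ[k] P) : FR (Z.map f) (B.map f) := by
  obtain ⟨F, hF, h⟩ := h
  exact ⟨F.map f, hF.map f, by rw [← Submodule.map_sup]; exact Submodule.map_mono h⟩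

theorem fg_map_mkQ (h : FR Z B) : (Z.map B.mkQ).FG := by
  obtain ⟨F, hF, h⟩ := h
  have h1 : Z.map B.mkQ ≤ F.map B.mkQ := by
    refine (Submodule.map_mono h).trans ?_
    rw [Submodule.map_sup, Submodule.mkQ_map_self, sup_bot_eq]
  have h2 : FiniteDimensional k (F.map B.mkQ) := (Module.Finite.iff_fg).2 (hF.map _)
  exact (Module.Finite.iff_fg).1 (Submodule.finiteDimensional_of_le h1)

/-- a subspace with finite dimensional image is finite dimensional modulo the kernel -/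
theorem of_fg_map {Q : Submodule k P} (q : P →ₗ[k] M) (h : (Q.map q).FG) :
    ∃ F : Submodule k P, F.FG ∧ F ≤ Q ∧ Q ≤ F ⊔ (Q ⊓ LinearMap.ker q) := by
  classical
  obtain ⟨s, hs⟩ := h
  have h1 : (s : Set M) ⊆ q '' (Q : Set P) := fun x hx => by
    have : x ∈ Q.map q := hs ▸ Submodule.subset_span hx
    exact this
  obtain ⟨t, ht, rfl⟩ := Finset.subset_set_image_iff.1 h1
  have hle : Submodule.span k (t : Set P) ≤ Q := Submodule.span_le.2 ht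
  refine ⟨Submodule.span k t, ⟨t, rfl⟩, hle, fun p hp => ?_⟩
  have h2 : q p ∈ (Submodule.span k (t : Set P)).map q := by
    rw [Submodule.map_span, ← Finset.coe_image, hs]
    exact Submodule.mem_map_of_mem hp
  obtain ⟨f, hf, e⟩ := h2
  refine Submodule.mem_sup.2 ⟨f, hf, p - f, ⟨Q.sub_mem hp (hle hf), ?_⟩, by abel⟩
  show q (p - f) = 0
  rw [map_sub, e, sub_self]

/-- the finite dimensional part can be chosen inside `Z` -/
theorem exists_le (h : FR Z B) : ∃ F : Submodule k M, F.FG ∧ F ≤ Z ∧ Z ≤ F ⊔ (Z ⊓ B) := by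
  have := of_fg_map B.mkQ h.fg_map_mkQ
  rwa [Submodule.ker_mkQ] at this

theorem comap {Q : Submodule k P} (t : P →ₗ[k] M) (h : FR (Q.map t) B) :
    FR Q (Q ⊓ B.comap t) := by
  have h1 := h.fg_map_mkQ
  rw [← Submodule.map_comp] at h1
  obtain ⟨F, hF, -, h2⟩ := of_fg_map _ h1
  refine ⟨F, hF, ?_⟩
  rwa [LinearMap.ker_comp, Submodule.ker_mkQ] at h2

theorem iff_fg : FR Z B ↔ (Z.map B.mkQ).FG := by
  refine ⟨fg_map_mkQ, fun h => ?_⟩
  obtain ⟨F, hF, -, h2⟩ := of_fg_map _ h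
  rw [Submodule.ker_mkQ] at h2
  exact ⟨F, hF, h2.trans (sup_le_sup_left inf_le_right _)⟩

/-- directed exhaustion : if `Z ≤ ⨆ B i` and `FR Z (B i₀)` then `Z ≤ B i` for one `i` -/
theorem le_of_directed {ι : Type*} {T : ι → Submodule k M} (hT : Directed (· ≤ ·) T) (i₀ : ι)
    (h : FR Z (T i₀)) (hZ : ∀ z ∈ Z, ∃ i, z ∈ T i) : ∃ i, Z ≤ T i := by
  obtain ⟨F, ⟨s, rfl⟩, hF, h⟩ := h.exists_le
  have key : ∀ s : Finset M, (s : Set M) ⊆ Z → ∃ i, T i₀ ≤ T i ∧ (s : Set M) ⊆ T i := by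
    classical
    intro s
    induction s using Finset.induction_on with
    | empty => exact fun _ => ⟨i₀, le_rfl, by simp⟩
    | insert a s _ ih =>
      intro hs
      rw [Finset.coe_insert, Set.insert_subset_iff] at hs
      obtain ⟨i, hi, hi'⟩ := ih hs.2
      obtain ⟨j, hj⟩ := hZ a hs.1
      obtain ⟨l, h1, h2⟩ := hT i j
      refine ⟨l, hi.trans h1, ?_⟩
      rw [Finset.coe_insert, Set.insert_subset_iff]
      exact ⟨h2 hj, hi'.trans h1⟩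
  obtain ⟨i, hi, hi'⟩ := key s (Submodule.subset_span.trans hF)
  exact ⟨i, h.trans (sup_le (Submodule.span_le.2 hi') (inf_le_right.trans hi))⟩

/-- dual form : the annihilator of `B` lies in the annihilator of `Z` up to finite dimension -/
theorem dual (h : FR Z B) : FR B.dualAnnihilator Z.dualAnnihilator := by
  obtain ⟨F, hF, h⟩ := h
  have : FiniteDimensional k F := (Module.Finite.iff_fg).2 hF
  have h1 : FR (B.dualAnnihilator.map F.subtype.dualMap) ⊥ :=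
    of_fg ((Module.Finite.iff_fg).1 inferInstance)
  refine (h1.comap _).mono le_rfl fun u hu => ?_
  rw [Submodule.mem_dualAnnihilator]
  intro z hz
  obtain ⟨f, hf, b, hb, rfl⟩ := Submodule.mem_sup.1 (h hz)
  have h2 : u b = 0 := (Submodule.mem_dualAnnihilator _).1 hu.1 b hb
  have h3 : F.subtype.dualMap u = 0 := hu.2
  have h4 : u f = 0 := LinearMap.congr_fun h3 ⟨f, hf⟩
  rw [map_add, h2, h4, add_zero]

/-- pairing form : `ev` any bilinear pairing -/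
theorem pairing {Q : Type*} [AddCommGroup Q] [Module k Q] (h : FR Z B) (ev : Q →ₗ[k] M →ₗ[k] k)
    {Y Y' : Submodule k Q} (hY : ∀ u ∈ Y, ∀ b ∈ B, ev u b = 0)
    (hY' : ∀ u ∈ Y, (∀ z ∈ Z, ev u z = 0) → u ∈ Y') : FR Y Y' := by
  have h1 : FR (Y.map ev) Z.dualAnnihilator := h.dual.mono (by
    rintro _ ⟨u, hu, rfl⟩
    exact (Submodule.mem_dualAnnihilator _).2 (hY u hu)) le_rfl
  refine (h1.comap _).mono le_rfl fun u hu => hY' u hu.1 ?_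
  exact (Submodule.mem_dualAnnihilator _).1 hu.2

end FR

end FR

section step

variable {k : Type*} [Field k] {C₀ C₁ C₂ : Type*} [AddCommGroup C₀] [Module k C₀]
  [AddCommGroup C₁] [Module k C₁] [AddCommGroup C₂] [Module k C₂]
  {X : Type*} [TopologicalSpace X]

/-- Mayer-Vietoris step -/
theorem mv_step (d₁ : C₁ →ₗ[k] C₀) (a₁ a₂ v₁ v₂ v₁₂ Z B : Submodule k C₁) (w : Submodule k C₀)
    (h1 : a₁ ≤ v₁) (h2 : a₂ ≤ v₂) (h3 : v₁₂ ≤ v₁) (h4 : v₁₂ ≤ v₂)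
    (hw : a₁.map d₁ ⊓ a₂.map d₁ ≤ w) (hw' : FR w (v₁₂.map d₁))
    (f1 : FR (v₁ ⊓ LinearMap.ker d₁) B) (f2 : FR (v₂ ⊓ LinearMap.ker d₁) B)
    (hZ : ∀ z ∈ Z, ∃ a ∈ a₁, ∃ b ∈ a₂, d₁ (a + b) = 0 ∧ z - (a + b) ∈ B) : FR Z B := by
  let s : C₁ × C₁ →ₗ[k] C₁ := LinearMap.coprod LinearMap.id LinearMap.id
  let t : C₁ × C₁ →ₗ[k] C₀ := d₁ ∘ₗ LinearMap.fst k C₁ C₁
  let Q : Submodule k (C₁ × C₁) := a₁.prod a₂ ⊓ LinearMap.ker (d₁ ∘ₗ s)
  have q1 : FR (Q.map t) (v₁₂.map d₁) := by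
    refine hw'.mono ?_ le_rfl
    rintro _ ⟨⟨a, b⟩, ⟨⟨ha, hb⟩, hab⟩, rfl⟩
    have hab' : d₁ (a + b) = 0 := hab
    refine hw ⟨⟨a, ha, rfl⟩, ⟨-b, a₂.neg_mem hb, ?_⟩⟩
    show d₁ (-b) = d₁ a
    rw [map_add] at hab'
    rw [map_neg]
    exact (eq_neg_of_add_eq_zero_left hab').symm
  have q2 := (q1.comap t).map s
  have q3 : FR ((Q ⊓ (v₁₂.map d₁).comap t).map s) B := by
    refine (f1.sup f2).mono ?_ le_rfl
    rintro _ ⟨⟨a, b⟩, ⟨⟨⟨ha, hb⟩, hab⟩, e, he, he'⟩, rfl⟩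
    have hab' : d₁ (a + b) = 0 := hab
    have he'' : d₁ e = d₁ a := he'
    refine Submodule.mem_sup.2 ⟨a - e, ⟨v₁.sub_mem (h1 ha) (h3 he), ?_⟩, b + e,
      ⟨v₂.add_mem (h2 hb) (h4 he), ?_⟩, ?_⟩
    · show d₁ (a - e) = 0
      rw [map_sub, he'', sub_self]
    · show d₁ (b + e) = 0
      rw [map_add, he'', ← map_add, add_comm, hab']
    · show a - e + (b + e) = a + b
      abel
  refine FR.trans (Z' := Q.map s ⊔ B) (FR.of_le fun z hz => ?_) ((q2.trans q3).sup (FR.of_le le_rfl))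
  obtain ⟨a, ha, b, hb, h0, h⟩ := hZ z hz
  exact Submodule.mem_sup.2 ⟨a + b, ⟨(a, b), ⟨⟨ha, hb⟩, h0⟩, rfl⟩, _, h, by abel⟩

/-- one degree of Wilder's theorem -/
theorem step [T2Space X] [LocallyCompactSpace X] (d₁ : C₁ →ₗ[k] C₀)
    (c₀ : Set X → Submodule k C₀) (c₁ b₁ : Set X → Submodule k C₁)
    (m₀ : Monotone c₀) (m₁ : Monotone c₁) (mb : Monotone b₁) (he : c₁ ∅ = ⊥)
    (hd : ∀ A, (c₁ A).map d₁ ≤ c₀ A) (hi : ∀ A B, c₀ A ⊓ c₀ B ≤ c₀ (A ∩ B))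
    (small : ∀ A B, IsOpen A → IsOpen B → ∀ z ∈ c₁ (A ∪ B), d₁ z = 0 →
      ∃ a ∈ c₁ A, ∃ b ∈ c₁ B, d₁ (a + b) = 0 ∧ z - (a + b) ∈ b₁ (A ∪ B))
    (loc : ∀ U, IsOpen U → ∀ x ∈ U, ∃ V, IsOpen V ∧ x ∈ V ∧ V ⊆ U ∧
      FR (c₁ V ⊓ LinearMap.ker d₁) (b₁ U))
    (ih : ∀ K U, IsCompact K → IsOpen U → K ⊆ U →
      FR (c₀ K ⊓ LinearMap.range d₁) ((c₁ U).map d₁))
    {K U : Set X} (hK : IsCompact K) (hU : IsOpen U) (hKU : K ⊆ U) :
    ∃ V, IsOpen V ∧ K ⊆ V ∧ V ⊆ U ∧ FR (c₁ V ⊓ LinearMap.ker d₁) (b₁ U) := by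
  suffices h : ∃ L, IsCompact L ∧ K ⊆ L ∧ ∃ V, IsOpen V ∧ L ⊆ V ∧ V ⊆ U ∧
      FR (c₁ V ⊓ LinearMap.ker d₁) (b₁ U) by
    obtain ⟨L, -, h1, V, h2, h3, h4, h5⟩ := h
    exact ⟨V, h2, h1.trans h3, h4, h5⟩
  refine hK.induction_on (p := fun S => ∃ L, IsCompact L ∧ S ⊆ L ∧ ∃ V, IsOpen V ∧ L ⊆ V ∧ V ⊆ U ∧
      FR (c₁ V ⊓ LinearMap.ker d₁) (b₁ U)) ?_ ?_ ?_ ?_
  · exact ⟨∅, isCompact_empty, Subset.rfl, ∅, isOpen_empty, Subset.rfl, empty_subset _,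
      FR.of_le (by rw [he]; simp)⟩
  · rintro s t hst ⟨L, h1, h2, h3⟩
    exact ⟨L, h1, hst.trans h2, h3⟩
  · rintro s t ⟨L₁, hL₁, hs, V₁, hV₁, hLV₁, hU₁, f₁⟩ ⟨L₂, hL₂, ht, V₂, hV₂, hLV₂, hU₂, f₂⟩
    obtain ⟨N₁, hN₁, i₁, j₁⟩ := exists_compact_between hL₁ hV₁ hLV₁
    obtain ⟨N₂, hN₂, i₂, j₂⟩ := exists_compact_between hL₂ hV₂ hLV₂
    have hW : interior N₁ ∪ interior N₂ ⊆ U :=
      union_subset (interior_subset.trans (j₁.trans hU₁)) (interior_subset.trans (j₂.trans hU₂))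
    refine ⟨L₁ ∪ L₂, hL₁.union hL₂, union_subset_union hs ht, interior N₁ ∪ interior N₂,
      isOpen_interior.union isOpen_interior, union_subset_union i₁ i₂, hW, ?_⟩
    refine mv_step d₁ (c₁ (interior N₁)) (c₁ (interior N₂)) (c₁ V₁) (c₁ V₂) (c₁ (V₁ ∩ V₂)) _ _
      (c₀ (N₁ ∩ N₂) ⊓ LinearMap.range d₁) (m₁ (interior_subset.trans j₁))
      (m₁ (interior_subset.trans j₂)) (m₁ inter_subset_left) (m₁ inter_subset_right) ?_
      (ih _ _ (hN₁.inter hN₂) (hV₁.inter hV₂) (inter_subset_inter j₁ j₂)) f₁ f₂ ?_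
    · refine le_inf (le_trans (inf_le_inf ?_ ?_) (hi _ _)) (inf_le_left.trans LinearMap.map_le_range)
      · exact (hd _).trans (m₀ interior_subset)
      · exact (hd _).trans (m₀ interior_subset)
    · intro z hz
      obtain ⟨a, ha, b, hb, h0, h⟩ := small _ _ isOpen_interior isOpen_interior z hz.1 hz.2
      exact ⟨a, ha, b, hb, h0, mb hW h⟩
  · intro x hx
    obtain ⟨V, hV, hxV, hVU, f⟩ := loc U hU x (hKU hx)
    obtain ⟨L, hL, h1, h2⟩ := exists_compact_subset hV hxV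
    exact ⟨L, mem_nhdsWithin_of_mem_nhds (mem_interior_iff_mem_nhds.1 h1), L, hL, Subset.rfl, V,
      hV, h2, hVU, f⟩

end step

end Crest.Agent.N255.Wi
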