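import Crest.Agent.N255.Wi.Main
import Crest.Agent.N255.Tp.Sm
import Crest.Agent.N255.Tp.Cell
import Crest.Agent.N255.Tp.Uct

/-!
# Row 255, block D (helper89): closed forms of Wilder finiteness
-/

set_option autoImplicit false
open Set Filter Topology

noncomputable section

namespace Crest.Agent.N255.Wi

open Crest.Agent.N255.Tp

theorem wilderS_holds : WilderS := wilderS_of smChS_holds cellS_holds uctS_holds

theorem unifS_holds : UnifS := unifS_of smChS_holds cellS_holds

variable {k : Type} [Field k] {X : Type} [TopologicalSpace X] [T2Space X] {K U : Set X}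

/-- homology, with an open neighbourhood -/
theorem fr_hom (d : ℕ) [ChartedSpace (EE d) X] (n : ℕ) (hK : IsCompact K) (hU : IsOpen U) (hKU : K ⊆ U) :
    ∃ V, IsOpen V ∧ K ⊆ V ∧ V ⊆ U ∧ FR ((On V).ch k n ⊓ cyc k X n) ((On U).B k n) :=
  wilder_nhd smChS_holds cellS_holds d n hK hU hKU

/-- cohomology, with an open neighbourhood -/
theorem fr_coh (d : ℕ) [ChartedSpace (EE d) X] (n : ℕ) (hK : IsCompact K) (hU : IsOpen U) (hKU : K ⊆ U) :
    ∃ V, IsOpen V ∧ K ⊆ V ∧ V ⊆ U ∧ FR ((On U).Z k k n) ((On V).Ex k k n) := by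
  obtain ⟨V, h1, h2, h3, h4⟩ := fr_hom (k := k) d n hK hU hKU
  exact ⟨V, h1, h2, h3, fr_dual uctS_holds n h4⟩

/-- arbitrary families squeezed between a compact set and an open set -/
theorem fr_coh_sb (d : ℕ) [ChartedSpace (EE d) X] (n : ℕ) (hK : IsCompact K) (hU : IsOpen U) (hKU : K ⊆ U) {P Q : Sb X}
    (hP : P.Le (On K)) (hQ : (On U).Le Q) : FR (Q.Z k k n) (P.Ex k k n) :=
  (fr_dual uctS_holds n (wilder_fr smChS_holds cellS_holds d n hK hU hKU)).mono (Sb.Z_mono hQ)
    (Sb.Ex_mono hP)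

end Crest.Agent.N255.Wi

end
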